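import Vale.Agent.P078.Local.Def.Chain
import Vale.Agent.P078.Local.Prob.Tail

/-!
# Statements of the modules of the local rule (notes/P078/TYPE3_LEAN.md)

Each `Stmt…` is the exact statement that the named module proves as a theorem. They are
abbreviations of propositions only.
-/

namespace Vale.Agent.P078.Local.Iface

open Vale.Agent.P078.Local

variable {ι : Type*} [Fintype ι] [DecidableEq ι] {r : ℕ}

/-- Slice/Line: the resolvent along `Z + s`. -/
def StmtLine : Prop :=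
  ∀ (T : Finset ι) (h : ι → Fin r → ℝ) (Z : ι → ℝ) (x : ι → ι → ℂ) (l : ι),
    IsLaw T h → l ∈ T → (∀ u, x u u = 0) → Valid T h Z x → ∀ a : ℝ, 0 ≤ a →
      Phi T h Z x l - Phi T h (fun u => Z u + a) x l ≤ a * Irow T h Z x l ∧
      a * Irow T h (fun u => Z u + a) x l ≤ Phi T h Z x l - Phi T h (fun u => Z u + a) x l ∧
      Irow T h (fun u => Z u + a) x l ≤ Irow T h Z x l ∧
      ∀ c, 0 < h l c → m T l h c Z x - m T l h c (fun u => Z u + a) x
        ≤ a * (Z l ^ 2 * Irow T h Z x l / h l c)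

/-- Slice/Order: signs and monotonicity. -/
def StmtOrder : Prop :=
  ∀ (T U : Finset ι) (h : ι → Fin r → ℝ) (Z Z' : ι → ℝ) (x : ι → ι → ℂ) (l u : ι),
    IsLaw T h → U ⊆ T → l ∈ U → u ∈ T → (∀ v, x v v = 0) → Valid T h Z x → (∀ v ∈ T, Z v ≤ Z' v) →
      0 < Phi T h Z x l ∧ 1 / Z l ≤ Phi T h Z x l ∧ 0 ≤ W T h Z x l u ∧
      W T h Z x l u = W T h Z x u l ∧ Phi T h Z' x l ≤ Phi T h Z x l ∧
      Phi U h Z x l ≤ Phi T h Z x l ∧ (∀ c, m U l h c Z x ≤ m T l h c Z x) ∧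
      ∀ g : ℝ, 0 < g → Valid T h (fun v => Z v - g) x → Phi T h Z x l ≤ 1 / g

/-- Slice/Tail: replacing a set by a ball. -/
def StmtTail : Prop :=
  ∀ (D : ℕ) (N : Net ι D) (s : Bool) (S : Finset ι) (h : ι → Fin r → ℝ) (Z : ι → ℝ) (l : ι) (R : ℕ)
    (g : ℝ), IsLaw S h → 4 ≤ R → 0 < g → g ≤ 1 → (∀ u ∈ S, Z u ≤ 4) → N.ball l R ⊆ S →
      Valid S h (fun u => Z u - g) (N.xs s) →
      Phi S h Z (N.xs s) l ≤ Phi (N.ball l R) h Z (N.xs s) l + tailB R g ∧
      ∀ c, m S l h c Z (N.xs s) ≤ m (N.ball l R) l h c Z (N.xs s) + tailB R g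

/-- Slice/Jump: the exact jump and the triangle bound. -/
def StmtJump : Prop :=
  ∀ (T : Finset ι) (h : ι → Fin r → ℝ) (Z : ι → ℝ) (x : ι → ι → ℂ) (w : ι) (ξ : Fin r → ℝ) (a : ℝ),
    IsLaw T h → w ∈ T → (∀ u, x u u = 0) → Valid T h Z x → Z w ≤ 2 → ∑ c, ξ c = 0 →
    (∀ c, |ξ c| ≤ a) → (∀ c, ξ c ≠ 0 → 1 / (4 * (r : ℝ)) + a ≤ h w c) →
    let h1 := fun σ : ℝ => Function.update h w (fun c => h w c + σ * ξ c)
    let Z1 := fun σ : ℝ => Function.update Z w (Z w + σ * ∑ c, ξ c * m T w h c Z x)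
    (∀ σ ∈ ({1, -1} : Set ℝ), IsLaw T (h1 σ) ∧ Valid T (h1 σ) (Z1 σ) x) ∧
    (∀ l ∈ T, Phi T (h1 1) (Z1 1) x l + Phi T (h1 (-1)) (Z1 (-1)) x l = 2 * Phi T h Z x l) ∧
    ∀ l ∈ T, ∀ u ∈ T, ∃ L Q : ℝ,
      |L| ≤ 80 * (r : ℝ) ^ 2 * a *
          (Real.sqrt (W T h Z x l u * W T h Z x l w * W T h Z x w u)
            + W T h Z x l w * W T h Z x w u) ∧
      |Q| ≤ 80 * (r : ℝ) ^ 2 * a ^ 2 * (W T h Z x l w * W T h Z x w u) ∧
      ∀ σ ∈ ({1, -1} : Set ℝ), W T (h1 σ) (Z1 σ) x l u = W T h Z x l u + σ * L + Q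

/-- Glue: two validities glue at the cost `2 (D + 1) / w²`. -/
def StmtGlue : Prop :=
  ∀ (D : ℕ) (N : Net ι D) (s : Bool) (T T1 T2 A : Finset ι) (h : ι → Fin r → ℝ) (Z1 Z2 : ι → ℝ)
    (b : ℝ) (w : ℕ), IsLaw T h → 0 < w → T1 ⊆ T → T2 ⊆ T →
    (∀ l ∈ T, N.lev A w l < w → l ∈ T1) → (∀ l ∈ T, 0 < N.lev A w l → l ∈ T2) →
    Valid T1 h Z1 (N.xs s) → Valid T2 h Z2 (N.xs s) → (∀ l ∈ T1, Z1 l ≤ b) → (∀ l ∈ T2, Z2 l ≤ b) →
      Valid T h (fun _ => b + 2 * ((D : ℝ) + 1) / (w : ℝ) ^ 2) (N.xs s)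

/-- Flip/Bridge: `prob` over all coins of an event read off a list of distinct slots is the fair
`mean` of `Prob/Tail.lean`. -/
def StmtBridge.{u} : Prop :=
  ∀ {κ : Type u} [Fintype κ] [DecidableEq κ] (n : ℕ) (f : Fin n ↪ κ) (ev : (Fin n → Bool) → Prop),
    prob (fun σ : κ → Bool => ev fun i => σ (f i))
      = mean (fun _ : Bool => (1 / 2 : ℝ)) n fun w => by classical exact if ev w then 1 else 0

variable (p : Par)

/-- The period facts used by the deterministic modules. -/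
def PeriodInput (N : Net ι p.D) (ω : Seeds ι p) (σ : Coins ι p) (i : Fin 3) (s : Bool) (a : ℕ)
    (S : Finset ι) : Prop :=
  p.len i ∣ a ∧ a + p.len i ≤ p.Nph ∧
    Valid S (stateAt p N ω σ a).h (fun _ => p.floor i a) (N.xs s)

/-- Period/ZBound: in clean nested sets the point moves by at most `ρ/16` and the laws are exact. -/
def StmtZBound : Prop :=
  p.Ok → ∀ (N : Net ι p.D) (ω : Seeds ι p) (σ : Coins ι p) (i : Fin 3) (s : Bool) (a : ℕ)
    (S : Finset ι), PeriodInput p N ω σ i s a S →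
    ∀ V : ℕ → Finset ι, V 0 ⊆ core p N i S →
      Disjoint (V 0) (perEx p N ω σ i s a S (stateAt p N ω σ a)) →
      (∀ j < 9, N.nbhd (V (j + 1)) (p.R i) ⊆ V j) →
      ∀ k, let q := axRun p N ω σ i s a S (stateAt p N ω σ a) ((seg p ω a (a + p.len i)).take k)
        Valid S q.2.h q.2.Z (N.xs s) ∧
        ∀ l ∈ V 9, |q.2.Z l - (p.floor i a + p.rise i / 2)| ≤ p.rise i / 16 ∧ q.2.h l = q.1.h l

/-- Period/Out: the output is valid one rise above the input. -/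
def StmtOut : Prop :=
  p.Ok → ∀ (N : Net ι p.D) (ω : Seeds ι p) (σ : Coins ι p) (i : Fin 3) (s : Bool) (a : ℕ)
    (S D : Finset ι), PeriodInput p N ω σ i s a S → D ⊆ S →
    Valid D (stateAt p N ω σ (a + p.len i)).h (fun _ => p.floor i a + p.rise i / 8) (N.xs s) →
      Valid (perOut p N ω σ i s a S D (stateAt p N ω σ a)) (stateAt p N ω σ (a + p.len i)).h
        (fun _ => p.floor i a + 7 * p.rise i / 8) (N.xs s)

/-- Period/Turn: deep inside a clean region the turn test passes at every time of the period. -/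
def StmtTurn : Prop :=
  p.Ok → ∀ (N : Net ι p.D) (ω : Seeds ι p) (σ : Coins ι p) (i : Fin 3) (s : Bool) (a : ℕ)
    (S : Finset ι) (l : ι), PeriodInput p N ω σ i s a S →
    startOK p N i s (p.floor i a) (stateAt p N ω σ a).h l → N.ball l (12 * p.R i) ⊆ S →
    Disjoint (N.ball l (12 * p.R i)) (perEx p N ω σ i s a S (stateAt p N ω σ a)) →
      ∀ k, turnOK p N i s (p.floor i a)
        (runOn p N ω σ (stateAt p N ω σ a) ((seg p ω a (a + p.len i)).take k)).h l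

/-- Exit: the probability of an exit, whatever happened before the period. -/
def StmtExit : Prop :=
  p.Ok → ∀ (N : Net ι p.D) (ω : Seeds ι p) (i : Fin 3) (s : Bool) (a : ℕ) (S : Finset ι)
    (st : St ι p.r) (l : ι), p.len i ∣ a → a + p.len i ≤ p.Nph → IsLaw Finset.univ st.h →
    Valid S st.h (fun _ => p.floor i a) (N.xs s) →
      prob (fun σ : Coins ι p => l ∈ perEx p N ω σ i s a S st) ≤ p.pE i

/-- The start: uniform laws are valid at half the first floor around `o`. -/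
def StartOK (N : Net ι p.D) (o : ι) : Prop :=
  ∀ s, Valid (N.ball o p.Lg) (init (ι := ι) p).h (fun _ => p.t0 / 2) (N.xs s)

/-- Chain/Valid: every set is valid at the floor of its period. -/
def StmtChain : Prop :=
  p.Ok → ∀ (N : Net ι p.D) (ω : Seeds ι p) (σ : Coins ι p) (o : ι) (s : Bool) (k : ℕ) (i : Fin 3),
    StartOK p N o → k ≤ p.Nph → p.len i ∣ k →
      Valid (sets p N ω σ o s k i) (stateAt p N ω σ k).h (fun _ => p.floor i k) (N.xs s)

/-- Chain/Depth: histories are good with probability `1 - failG`. -/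
def StmtDepth : Prop :=
  p.Ok → ∀ (N : Net ι p.D) (ω : Seeds ι p) (o : ι), StartOK p N o →
    prob (fun σ : Coins ι p => ¬ GoodTo p N ω σ o p.Nph) ≤ p.failG

/-- Moves: a site is rarely unresolved on a good history. -/
def StmtMoves : Prop :=
  p.Ok → ∀ (N : Net ι p.D) (o : ι), StartOK p N o →
    prob (fun t : Seeds ι p × Coins ι p =>
      GoodTo p N t.1 t.2 o p.Nph ∧ 8 ≤ (live p (stateAt p N t.1 t.2 p.Nph).h o).card) ≤ p.failU

/-- Finish: a good history with `B(o, m)` resolved gives a paving of the ball. -/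
def StmtFinish : Prop :=
  p.Ok → ∀ (N : Net ι p.D) (ω : Seeds ι p) (σ : Coins ι p) (o : ι) (m : ℕ), StartOK p N o →
    m ≤ p.rt → GoodTo p N ω σ o p.Nph →
    (∀ u ∈ N.ball o m, (live p (stateAt p N ω σ p.Nph).h u).card < 8) →
    ∀ (c : Fin p.r) (U : Finset ι), U ⊆ N.ball o m → (∀ u ∈ U, IsColour p N ω σ u c) →
      OpLe U N.x (20 * p.t0)

/-- Params: the requirements can be met with small failure probability. -/
def StmtParams : Prop :=
  ∀ (D r m : ℕ) (t0 M T δ : ℝ), 8 ≤ r → 0 < t0 → t0 ≤ 1 / 4 → 1 ≤ M → 0 < T → 0 < δ →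
    ∃ p : Par, p.D = D ∧ p.r = r ∧ p.t0 = t0 ∧ p.M = M ∧ p.Ok ∧ m ≤ p.rt ∧ T ≤ p.η * p.Nph ∧
      p.failG ≤ δ ∧ p.vol (2 * p.R 0) / p.P ≤ δ

/-- Loc: outputs depend only on the net and the seeds within `p.depend`, up to gauge. -/
def StmtLocal.{u, v} : Prop :=
  p.Ok → ∀ (α : Type u) (β : Type v) [Fintype α] [DecidableEq α] [Fintype β] [DecidableEq β]
    (N : Net α p.D) (N' : Net β p.D) (ω : Seeds α p) (σ : Coins α p) (ω' : Seeds β p)
    (σ' : Coins β p) (o : α) (f : α → β) (g : α → ℂ),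
    Set.InjOn f (N.ball o p.depend : Set α) →
    (N.ball o p.depend).image f = N'.ball (f o) p.depend →
    (∀ l ∈ N.ball o p.depend, ∀ u ∈ N.ball o p.depend,
      (u ∈ N.nb l ↔ f u ∈ N'.nb (f l)) ∧
        N'.x (f l) (f u) = g l * N.x l u * (starRingEnd ℂ) (g u)) →
    (∀ l ∈ N.ball o p.depend, ‖g l‖ = 1) →
    (∀ n, ∀ l ∈ N.ball o p.depend, ω' n (f l) = ω n l ∧ σ' (n, some (f l)) = σ (n, some l)) →
      (stateAt p N' ω' σ' p.Nph).h (f o) = (stateAt p N ω σ p.Nph).h o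

/-- Sym: every colour has probability `1/r`. -/
def StmtSym : Prop :=
  p.Ok → ∀ (N : Net ι p.D) (o : ι) (c : Fin p.r),
    prob (fun t : Seeds ι p × Coins ι p => IsColour p N t.1 t.2 o c) = 1 / p.r

/-- Meas: the colour depends measurably on the entries. -/
def StmtMeas.{u, v} : Prop :=
  p.Ok → ∀ (α : Type u) [Fintype α] [DecidableEq α] (Ω : Type v) [MeasurableSpace Ω]
    (nb : α → Finset α) (N : Ω → Net α p.D), (∀ w, (N w).nb = nb) →
    (∀ l u, Measurable fun w => (N w).x l u) →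
    ∀ (ω : Seeds α p) (σ : Coins α p) (o : α) (c : Fin p.r),
      MeasurableSet {w | IsColour p (N w) ω σ o c}

/-- Start: `valid_uniform` in the present notation. -/
def StmtStart : Prop :=
  ∀ (r : ℕ), 16 ≤ r → ∀ (D : ℕ) (N : Net ι D) (s : Bool) (T : Finset ι),
    Valid T (fun (_ : ι) (_ : Fin r) => 1 / (r : ℝ)) (fun _ => 4 / Real.sqrt r) (N.xs s)

/-- The goal: a finite-range rule with `C/ε²` colours that paves at every site. -/
def Goal.{u} : Prop :=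
  ∃ C : ℝ, 0 < C ∧ ∀ ε : ℝ, 0 < ε → ε ≤ 1 → ∃ r : ℕ, 0 < r ∧ (r : ℝ) ≤ C / ε ^ 2 ∧
    ∀ (D m : ℕ) (δ : ℝ), 0 < δ → ∃ p : Par, p.D = D ∧ p.r = r ∧ p.Ok ∧
      ∀ (κ : Type u) [Fintype κ] [DecidableEq κ] (N : Net κ p.D) (o : κ),
        prob (fun t : Seeds κ p × Coins κ p =>
          ¬ ∀ (c : Fin p.r) (U : Finset κ), U ⊆ N.ball o m →
            (∀ u ∈ U, IsColour p N t.1 t.2 u c) → OpLe U N.x ε) ≤ δ

end Vale.Agent.P078.Local.Iface
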